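import Vale.Agent.P366.Main

namespace Vale.Agent.Results.P366.A_Sp

open Vale.Agent.P366 Filter Topology

theorem result {n : ℕ} (hn : 4 < n) (L : Fin 3 → Mat n) (hL : Qt L) (c k : Co) (hc : c.Ok)
    (hk : k.Ok) (hD : c.D = 0) (g K : Ten n) (hg : g = sym L c) (hK : K = sym L k) (R0 q : ℝ)
    (hR : 0 < R0) (hq : ((n : ℝ) - 2) / 2 < q) (hpos : ∀ x : E n, R0 ≤ ‖x‖ → (g x).PosDef)
    (hdec : ∃ C R : ℝ, ∀ x : E n, R ≤ ‖x‖ → ∀ i j l, |(g x - 1) i j| ≤ C * ‖x‖ ^ (-q) ∧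
      |pd l (fun y => g y i j) x| ≤ C * ‖x‖ ^ (-q - 1) ∧ |K x i j| ≤ C * ‖x‖ ^ (-1 - q))
    (hdom : ∀ x : E n, R0 ≤ ‖x‖ → curN g K x ≤ mu g K x)
    (htr : ∀ x : E n, ‖x‖ = R0 → thp g K x ≤ 0) (En : ℝ) (P : Fin n → ℝ)
    (hE : Tendsto (eflux g) atTop (𝓝 En)) (hP : ∀ i, Tendsto (pflux g K i) atTop (𝓝 (P i))) :
    √(∑ i, P i ^ 2) ≤ En ∧ ∃ r, R0 ≤ r ∧
      1 / 2 * (area g r / om n) ^ (((n : ℝ) - 2) / (n - 1)) ≤ √(En ^ 2 - ∑ i, P i ^ 2) :=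
  penrose hn L hL c k hc hk hD g K hg hK R0 q hR hq hpos hdec hdom htr En P hE hP

end Vale.Agent.Results.P366.A_Sp
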